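import Mathlib
import Vale.Agent.P150.GaussIBP
import Vale.Agent.P150.Gap

/-!
# The one-site problem at `β = 1`: stationarity curve and first moment

`tilt μ z = z + sinh z cosh z - 2μ tanh z` is the field at which `z` is stationary for
`z ↦ G tanh z - z tanh z + μ tanh² z`.
-/

namespace Vale.Agent.P150.Beta1.Radial

open MeasureTheory ProbabilityTheory Set Filter Real
open scoped Topology

/-- The certificate at squared radius `q`: a Lagrange multiplier and a majorant of the
one-site value whose Gaussian mean gives the bound `q (1 - q)`. -/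
def CertAt (q : ℝ) : Prop :=
  ∃ (lam : ℝ) (V : ℝ → ℝ), Continuous V ∧ Integrable V (gaussianReal 0 1) ∧
    (∀ g z, 2 * √q * g * tanh z - tanh z * z - lam * tanh z ^ 2 ≤ V g) ∧
    (∫ g, V g ∂gaussianReal 0 1) + lam * q ≤ q * (1 - q)

/-- The field at which `z` is stationary. -/
noncomputable def tilt (μ z : ℝ) : ℝ := z + sinh z * cosh z - 2 * μ * tanh z

/-- Its derivative. -/
noncomputable def tiltDer (μ z : ℝ) : ℝ := 2 * cosh z ^ 2 - 2 * μ / cosh z ^ 2

lemma one_sub_tanh_sq (z : ℝ) : 1 - tanh z ^ 2 = 1 / cosh z ^ 2 := by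
  have h := (cosh_pos z).ne'
  have h1 := cosh_sq_sub_sinh_sq z
  rw [tanh_eq_sinh_div_cosh]
  field_simp
  linear_combination h1

lemma tanh_sq_lt_one' (z : ℝ) : tanh z ^ 2 < 1 := by
  have h := one_sub_tanh_sq z
  have h2 : 0 < 1 / cosh z ^ 2 := one_div_pos.2 (pow_pos (cosh_pos z) 2)
  linarith

lemma hasDerivAt_tilt (μ z : ℝ) : HasDerivAt (tilt μ) (tiltDer μ z) z := by
  have h := ((hasDerivAt_id z).add ((hasDerivAt_sinh z).mul (hasDerivAt_cosh z))).sub
    ((hasDerivAt_tanh' z).const_mul (2 * μ))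
  refine h.congr_deriv ?_
  rw [one_sub_tanh_sq, tiltDer]
  have := cosh_sq_sub_sinh_sq z
  linear_combination -this

lemma continuous_tilt (μ : ℝ) : Continuous (tilt μ) :=
  continuous_iff_continuousAt.2 fun z => (hasDerivAt_tilt μ z).continuousAt

lemma one_le_cosh_sq (z : ℝ) : 1 ≤ cosh z ^ 2 := one_le_pow₀ (one_le_cosh z)

lemma le_tiltDer {μ : ℝ} (hμ : 0 ≤ μ) (z : ℝ) : 2 - 2 * μ ≤ tiltDer μ z := by
  have h := one_le_cosh_sq z
  have h2 : 2 * μ / cosh z ^ 2 ≤ 2 * μ := div_le_self (by linarith) h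
  unfold tiltDer
  linarith

/-- The value being maximised, without its linear term. -/
noncomputable def siteCost (μ z : ℝ) : ℝ := z * tanh z - μ * tanh z ^ 2

lemma hasDerivAt_siteCost (μ z : ℝ) :
    HasDerivAt (siteCost μ) ((1 - tanh z ^ 2) * tilt μ z) z := by
  have h := ((hasDerivAt_id z).mul (hasDerivAt_tanh' z)).sub
    (((hasDerivAt_tanh' z).pow 2).const_mul μ)
  refine h.congr_deriv ?_
  simp only [tilt, id, one_sub_tanh_sq]
  rw [tanh_eq_sinh_div_cosh]
  have hc := (cosh_pos z).ne'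
  field_simp
  push_cast
  field_simp
  ring

/-- If the stationary curve crosses the level `G` only at `z₀`, upwards, then `z₀` maximises. -/
lemma le_of_cross {μ G z₀ : ℝ} {s : Set ℝ} (hs : Convex ℝ s) (hz₀ : z₀ ∈ s)
    (hl : ∀ z ∈ s, z ≤ z₀ → tilt μ z ≤ G) (hr : ∀ z ∈ s, z₀ ≤ z → G ≤ tilt μ z) :
    ∀ z ∈ s, G * tanh z - siteCost μ z ≤ G * tanh z₀ - siteCost μ z₀ := by
  intro z hz
  have hd : ∀ y, HasDerivAt (fun y => G * tanh y - siteCost μ y)
      ((1 - tanh y ^ 2) * (G - tilt μ y)) y := fun y => by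
    refine (((hasDerivAt_tanh' y).const_mul G).sub (hasDerivAt_siteCost μ y)).congr_deriv ?_
    ring
  have hv : ∀ y, 0 ≤ 1 - tanh y ^ 2 := fun y => by linarith [tanh_sq_lt_one' y]
  have hc : Continuous fun y => G * tanh y - siteCost μ y :=
    continuous_iff_continuousAt.2 fun y => (hd y).continuousAt
  rcases le_total z z₀ with h | h
  · refine monotoneOn_of_hasDerivWithinAt_nonneg (convex_Icc z z₀) hc.continuousOn
      (fun y _ => (hd y).hasDerivWithinAt) (fun y hy => ?_) ⟨le_rfl, h⟩ ⟨h, le_rfl⟩ h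
    rw [interior_Icc] at hy
    exact mul_nonneg (hv y)
      (sub_nonneg.2 (hl y (hs.ordConnected.out hz hz₀ ⟨hy.1.le, hy.2.le⟩) hy.2.le))
  · refine antitoneOn_of_hasDerivWithinAt_nonpos (convex_Icc z₀ z) hc.continuousOn
      (fun y _ => (hd y).hasDerivWithinAt) (fun y hy => ?_) ⟨le_rfl, h⟩ ⟨h, le_rfl⟩ h
    rw [interior_Icc] at hy
    exact mul_nonpos_of_nonneg_of_nonpos (hv y)
      (sub_nonpos.2 (hr y (hs.ordConnected.out hz₀ hz ⟨hy.1.le, hy.2.le⟩) hy.1.le))

lemma integrable_abs_gauss : Integrable (fun x : ℝ => |x|) (gaussianReal 0 1) :=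
  (integrable_one_add_abs_pow 1).mono' continuous_abs.aestronglyMeasurable
    (ae_of_all _ fun x => by simp)

/-- First absolute moment of a standard normal variable. -/
lemma integral_abs_gauss : ∫ x, |x| ∂gaussianReal 0 1 = √(2 / π) := by
  set c : ℝ := (√(2 * π))⁻¹ with hc
  have hd : ∀ x : ℝ, HasDerivAt (fun y => -(c * exp (-y ^ 2 / 2))) (x * (c * exp (-x ^ 2 / 2))) x := by
    intro x
    refine (((((hasDerivAt_pow 2 x).neg).div_const 2).exp.const_mul c).neg).congr_deriv ?_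
    simp only [Pi.neg_apply]
    push_cast
    ring
  have ht : Tendsto (fun y : ℝ => -(c * exp (-y ^ 2 / 2))) atTop (𝓝 0) := by
    have h1 : Tendsto (fun y : ℝ => -y ^ 2 / 2) atTop atBot :=
      (tendsto_neg_atTop_atBot.comp (tendsto_pow_atTop two_ne_zero)).atBot_div_const two_pos
    simpa using ((tendsto_exp_atBot.comp h1).const_mul c).neg
  have hI : ∫ x in Ioi (0 : ℝ), x * (c * exp (-x ^ 2 / 2)) = c := by
    have := integral_Ioi_of_hasDerivAt_of_nonneg' (a := (0 : ℝ)) (fun x _ => hd x)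
      (fun x hx => mul_nonneg (le_of_lt hx) (by positivity)) ht
    simpa using this
  rw [integral_gaussianReal_eq_integral_smul one_ne_zero]
  have e : ∀ x : ℝ, gaussianPDFReal 0 1 x • |x| = |x| * (c * exp (-|x| ^ 2 / 2)) := by
    intro x
    simp [gaussianPDFReal_def, hc, smul_eq_mul, mul_comm]
  simp only [e]
  rw [integral_comp_abs (f := fun x => x * (c * exp (-x ^ 2 / 2))), hI, hc]
  have hp := pi_pos
  have e1 : √(2 / π) * √(2 * π) = 2 := by
    rw [← sqrt_mul (by positivity)]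
    rw [show 2 / π * (2 * π) = 2 ^ 2 by field_simp, sqrt_sq (by norm_num)]
  field_simp
  linarith

end Vale.Agent.P150.Beta1.Radial
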