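import Mathlib
import Vale.Agent.P150.Beta1.Radial.Tilt

/-!
# The certificate for large `q`: the first absolute moment and one tangent line
-/

namespace Vale.Agent.P150.Beta1.Radial

open MeasureTheory ProbabilityTheory Set Filter Real
open scoped Topology

/-- `artanh s + s (1 - s²)`, through the logarithm. -/
noncomputable def edgeFun (s : ℝ) : ℝ := 1 / 2 * log ((1 + s) / (1 - s)) + (s - s ^ 3)

lemma edgeFun_mono : MonotoneOn edgeFun (Ico 0 1) := by
  have hd : ∀ s ∈ Ico (0 : ℝ) 1, HasDerivAt edgeFun (1 / (1 - s ^ 2) + (1 - 3 * s ^ 2)) s := by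
    intro s hs
    have h1 := hasDerivAt_half_log_one_add_div_one_sub_sub_sum_range (y := s) 0
      (by linarith [hs.1]) (by linarith [hs.2])
    simp only [Finset.sum_range_zero, sub_zero, pow_zero] at h1
    refine (h1.add ((hasDerivAt_id s).sub (hasDerivAt_pow 3 s))).congr_deriv ?_
    push_cast
    ring
  refine monotoneOn_of_hasDerivWithinAt_nonneg (convex_Ico 0 1)
    (fun s hs => (hd s hs).continuousAt.continuousWithinAt)
    (fun s hs => (hd s (interior_subset hs)).hasDerivWithinAt) fun s hs => ?_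
  rw [interior_Ico] at hs
  have hv : 0 < 1 - s ^ 2 := by nlinarith [hs.1, hs.2]
  have e : 1 / (1 - s ^ 2) + (1 - 3 * s ^ 2) = (2 - 4 * s ^ 2 + 3 * (s ^ 2) ^ 2) / (1 - s ^ 2) := by
    field_simp
    ring
  rw [e]
  exact div_nonneg (by nlinarith [sq_nonneg (3 * s ^ 2 - 2)]) hv.le

lemma edgeFun_lower : 2 * √(2 / π) ≤ edgeFun (887 / 1000) := by
  have hpi := pi_gt_d2
  have h1 : √(2 / π) ≤ 7982 / 10000 := by
    rw [sqrt_le_left (by norm_num), div_le_iff₀ pi_pos]
    nlinarith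
  have h2 : (4 : ℝ) * 0.6931471803 + 0.04276 ≤ log ((1 + 887 / 1000) / (1 - 887 / 1000)) := by
    have hu : (0 : ℝ) ≤ 79 / 1808 := by norm_num
    have h3 := le_log_one_add_of_nonneg hu
    have e : ((1 : ℝ) + 887 / 1000) / (1 - 887 / 1000) = 2 ^ 4 * (1 + 79 / 1808) := by norm_num
    rw [e, log_mul (by norm_num) (by norm_num), log_pow]
    have h4 := log_two_gt_d9
    norm_num at h3 ⊢
    linarith
  have h5 : (15965 / 10000 : ℝ) ≤ edgeFun (887 / 1000) := by
    unfold edgeFun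
    norm_num at h2 ⊢
    linarith
  linarith

/-- Tangent line at `tanh z₀ ^ 2` to `tanh z ^ 2 ↦ z tanh z`. -/
lemma siteCost_tangent {μ z₀ : ℝ} (hμ : 0 ≤ μ) (hz₀ : 0 < z₀) (h0 : tilt μ z₀ = 0) (z : ℝ) :
    siteCost μ z₀ ≤ siteCost μ z := by
  suffices H : ∀ y ∈ Ici (0 : ℝ), siteCost μ z₀ ≤ siteCost μ y by
    have hev : siteCost μ (-z) = siteCost μ z := by simp [siteCost, tanh_neg]
    rcases le_total 0 z with h | h
    · exact H z h
    · exact hev ▸ H (-z) (neg_nonneg.2 h)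
  have hk0 : tilt μ 0 = 0 := by simp [tilt]
  obtain ⟨c, hc, hcd⟩ := exists_hasDerivAt_eq_zero hz₀ (continuous_tilt μ).continuousOn
    (hk0.trans h0.symm) fun x _ => hasDerivAt_tilt μ x
  have hmono : MonotoneOn (tiltDer μ) (Ici 0) := by
    intro a ha b hb hab
    have hc : cosh a ≤ cosh b := cosh_le_cosh.2 (by
      rwa [abs_of_nonneg (mem_Ici.1 ha), abs_of_nonneg (mem_Ici.1 hb)])
    have hc2 : cosh a ^ 2 ≤ cosh b ^ 2 := pow_le_pow_left₀ (cosh_pos a).le hc 2
    have := div_le_div_of_nonneg_left (by linarith : (0 : ℝ) ≤ 2 * μ)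
      (pow_pos (cosh_pos a) 2) hc2
    unfold tiltDer
    linarith
  have hA : AntitoneOn (tilt μ) (Icc 0 c) := by
    refine antitoneOn_of_hasDerivWithinAt_nonpos (convex_Icc 0 c) (continuous_tilt μ).continuousOn
      (fun x _ => (hasDerivAt_tilt μ x).hasDerivWithinAt) fun x hx => ?_
    rw [interior_Icc] at hx
    exact (hmono hx.1.le hc.1.le hx.2.le).trans_eq hcd
  have hB : MonotoneOn (tilt μ) (Ici c) := by
    refine monotoneOn_of_hasDerivWithinAt_nonneg (convex_Ici c) (continuous_tilt μ).continuousOn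
      (fun x _ => (hasDerivAt_tilt μ x).hasDerivWithinAt) fun x hx => ?_
    rw [interior_Ici] at hx
    exact hcd.symm.trans_le (hmono hc.1.le (hc.1.trans hx).le (le_of_lt hx))
  intro y hy
  have h := le_of_cross (μ := μ) (G := 0) (convex_Ici 0) (mem_Ici.2 hz₀.le)
    (fun x hx hx' => ?_) (fun x hx hx' => ?_) y hy
  · linarith
  · rcases le_total x c with h | h
    · exact (hA ⟨le_rfl, hc.1.le⟩ ⟨hx, h⟩ hx).trans_eq hk0
    · exact (hB h hc.2.le hx').trans_eq h0
  · exact h0.symm.trans_le (hB hc.2.le (hc.2.le.trans hx') hx')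

theorem cert_upper {q : ℝ} (hq : 63 / 80 ≤ q) (hq1 : q < 1) : CertAt q := by
  set s := √q with hs
  have hs0 : 0 < s := sqrt_pos.2 (by linarith)
  have hsq : s ^ 2 = q := sq_sqrt (by linarith)
  have hs1 : s < 1 := by nlinarith
  have hsI : s ∈ Ioo (-1 : ℝ) 1 := ⟨by linarith, hs1⟩
  set z₀ := artanh s with hz
  have ht : tanh z₀ = s := tanh_artanh hsI
  have hz0 : 0 < z₀ := artanh_pos ⟨hs0, hs1⟩
  set μ := (z₀ + sinh z₀ * cosh z₀) / (2 * s) with hμdef
  have hμ : 0 ≤ μ := div_nonneg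
    (add_nonneg hz0.le (mul_nonneg (sinh_nonneg_iff.2 hz0.le) (cosh_pos _).le)) (by linarith)
  have h0 : tilt μ z₀ = 0 := by
    rw [tilt, ht, hμdef]
    field_simp
    ring
  refine ⟨-μ, fun g => 2 * s * |g| - siteCost μ z₀, by fun_prop, ?_, fun g z => ?_, ?_⟩
  · exact (integrable_abs_gauss.const_mul (2 * s)).sub (integrable_const _)
  · have h1 := siteCost_tangent hμ hz0 h0 z
    have h2 : 2 * s * g * tanh z ≤ 2 * s * |g| := by
      have h3 : g * tanh z ≤ |g| := by
        refine (le_abs_self _).trans ?_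
        rw [abs_mul]
        exact mul_le_of_le_one_right (abs_nonneg g) (abs_tanh_lt_one z).le
      nlinarith
    have h4 : siteCost μ z = z * tanh z - μ * tanh z ^ 2 := rfl
    linarith
  · have hI : ∫ g, (2 * s * |g| - siteCost μ z₀) ∂gaussianReal 0 1
        = 2 * s * √(2 / π) - siteCost μ z₀ := by
      rw [integral_sub (integrable_abs_gauss.const_mul _) (integrable_const _), integral_const_mul,
        integral_abs_gauss]
      simp
    rw [hI, siteCost, ht, hsq]
    have hlow : (887 / 1000 : ℝ) ≤ s := le_sqrt_of_sq_le (by linarith [show (887 / 1000 : ℝ) ^ 2 ≤ 63 / 80 by norm_num])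
    have h5 := edgeFun_lower.trans (edgeFun_mono ⟨by norm_num, by norm_num⟩ ⟨hs0.le, hs1⟩ hlow)
    rw [edgeFun, ← artanh_eq_half_log ⟨by linarith, hs1.le⟩, ← hz] at h5
    have h6 := mul_le_mul_of_nonneg_left h5 hs0.le
    have h7 : s * (z₀ + (s - s ^ 3)) = z₀ * s + q * (1 - q) := by rw [← hsq]; ring
    linarith

end Vale.Agent.P150.Beta1.Radial
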