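import Mathlib
import Vale.Agent.P150.Beta1.Radial.Upper
import Vale.Agent.P150.Beta1.Radial.Small
import Vale.Agent.P150.Beta1.Radial.MidA
import Vale.Agent.P150.Beta1.Radial.MidB
import Vale.Agent.P150.Beta1.Radial.MidC

/-!
# The one-site certificate at `β = 1`, for every `q` in `(0, 1)`
-/

namespace Vale.Agent.P150.Beta1.Radial

open MeasureTheory ProbabilityTheory Real

/-- For every `q ∈ (0, 1)` a multiplier and a majorant give the bound `q (1 - q)`. -/
theorem cert {q : ℝ} (h0 : 0 < q) (h1 : q < 1) :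
    ∃ (lam : ℝ) (V : ℝ → ℝ), Continuous V ∧ Integrable V (gaussianReal 0 1) ∧
      (∀ g z, 2 * √q * g * tanh z - tanh z * z - lam * tanh z ^ 2 ≤ V g) ∧
      (∫ g, V g ∂gaussianReal 0 1) + lam * q ≤ q * (1 - q) := by
  rcases le_total q (1 / 5) with a0 | a0
  · exact cert_small h0 a0
  rcases le_total q (213 / 1000 : ℝ) with a1 | a1
  · exact cert_mid0 (by linarith) a1
  rcases le_total q (23 / 100 : ℝ) with a2 | a2
  · exact cert_mid1 (by linarith) a2
  rcases le_total q (251 / 1000 : ℝ) with a3 | a3
  · exact cert_mid2 (by linarith) a3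
  rcases le_total q (69 / 250 : ℝ) with a4 | a4
  · exact cert_mid3 (by linarith) a4
  rcases le_total q (307 / 1000 : ℝ) with a5 | a5
  · exact cert_mid4 (by linarith) a5
  rcases le_total q (347 / 1000 : ℝ) with a6 | a6
  · exact cert_mid5 (by linarith) a6
  rcases le_total q (2 / 5 : ℝ) with a7 | a7
  · exact cert_mid6 (by linarith) a7
  rcases le_total q (23 / 50 : ℝ) with a8 | a8
  · exact cert_mid7 (by linarith) a8
  rcases le_total q (27 / 50 : ℝ) with a9 | a9
  · exact cert_mid8 (by linarith) a9
  rcases le_total q (33 / 50 : ℝ) with a10 | a10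
  · exact cert_mid9 (by linarith) a10
  rcases le_total q (19 / 25 : ℝ) with a11 | a11
  · exact cert_mid10 (by linarith) a11
  rcases le_total q (63 / 80 : ℝ) with a12 | a12
  · exact cert_mid11 (by linarith) a12
  exact cert_upper (by linarith) h1

end Vale.Agent.P150.Beta1.Radial
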