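import Vale.Agent.P150.Beta1.Radial.Assembly
import Vale.Agent.P150.Beta1.Radial.Cert

/-!
# The zero-field radial inequality
-/

namespace Vale.Agent.P150.Beta1

theorem radialCert : RadialCert := fun _ h0 h1 => Radial.cert h0 h1

theorem radialStatement {β : ℝ} (hβ : 0 ≤ β) (hβ1 : β < 1) : RadialStatement β :=
  radialStatement_of_cert radialCert hβ hβ1

end Vale.Agent.P150.Beta1
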