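import Vale.Agent.P150.Beta1.Radial.Window

/-!
# The zero-field radial inequality from the one-site certificate

For `β < 1` the functional at inverse temperature `β` interpolates between the certificate at
`β = 1` and `-|m|²`; this gives the margin `(1 - β)² q`.
-/

namespace Vale.Agent.P150.Beta1

open MeasureTheory ProbabilityTheory Finset Filter Real
open scoped ENNReal Topology

/-- The one-site inequality at inverse temperature one. -/
def RadialCert : Prop :=
  ∀ q : ℝ, 0 < q → q < 1 → ∃ (lam : ℝ) (V : ℝ → ℝ), Continuous V ∧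
    Integrable V (gaussianReal 0 1) ∧
    (∀ g z : ℝ, 2 * √q * g * tanh z - tanh z * z - lam * tanh z ^ 2 ≤ V g) ∧
    ∫ g, V g ∂gaussianReal 0 1 + lam * q ≤ q * (1 - q)

lemma abs_tanh_eq (z : ℝ) : |tanh z| = tanh |z| := by
  rcases le_total 0 z with h | h
  · rw [abs_of_nonneg h, abs_of_nonneg]
    rw [tanh_eq_sinh_div_cosh]
    exact div_nonneg (sinh_nonneg_iff.2 h) (cosh_pos z).le
  · rw [abs_of_nonpos h, tanh_neg, abs_of_nonpos]
    rw [tanh_eq_sinh_div_cosh]
    exact div_nonpos_of_nonpos_of_nonneg (sinh_nonpos_iff.2 h) (cosh_pos z).le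

lemma tanh_mul_self (z : ℝ) : tanh z * z = tanh |z| * |z| := by
  rcases le_total 0 z with h | h
  · rw [abs_of_nonneg h]
  · rw [abs_of_nonpos h, tanh_neg, neg_mul_neg]

lemma sq_tanh_le_mul (z : ℝ) : tanh z ^ 2 ≤ tanh z * z := by
  rw [← sq_abs (tanh z), tanh_mul_self, sq, abs_tanh_eq]
  refine mul_le_mul_of_nonneg_left ?_ (abs_tanh_eq z ▸ abs_nonneg _)
  exact (tanh_bounds (abs_nonneg z)).1

lemma tanh_monotone' : Monotone tanh :=
  monotone_of_hasDerivAt_nonneg hasDerivAt_tanh' fun y => by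
    simp only [Pi.zero_apply]
    linarith [tanh_sq_lt_one y]

lemma tanh_six : 6 / 7 ≤ tanh (6 : ℝ) := by
  rw [tanh_eq, div_le_div_iff₀ (by norm_num) (by positivity)]
  have h1 := add_one_le_exp (6 : ℝ)
  have h2 := exp_pos (-6 : ℝ)
  have h3 : exp (6 : ℝ) * exp (-6) = 1 := by rw [← exp_add, add_neg_cancel, exp_zero]
  have h4 : exp (-6 : ℝ) ≤ 1 / 7 := by
    rw [le_div_iff₀ (by norm_num)]
    nlinarith
  linarith

/-- Sites with `tanh² z` close to one pay at least `36/7`. -/
lemma tanh_mul_self_high (z : ℝ) :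
    36 / 7 * (1 - (1 - tanh z ^ 2) / (1 - tanh 6 ^ 2)) ≤ tanh z * z := by
  have h6 : 0 < 1 - tanh (6 : ℝ) ^ 2 := by linarith [tanh_sq_lt_one (6 : ℝ)]
  rcases le_or_gt 6 |z| with h | h
  · have h1 : tanh 6 ≤ tanh |z| := tanh_monotone' h
    have h2 : 36 / 7 ≤ tanh z * z := by
      rw [tanh_mul_self]
      calc (36 / 7 : ℝ) = 6 / 7 * 6 := by norm_num
        _ ≤ tanh |z| * |z| :=
          mul_le_mul (tanh_six.trans h1) h (by norm_num)
            ((by norm_num : (0:ℝ) ≤ 6 / 7).trans (tanh_six.trans h1))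
    have h3 : 0 ≤ (1 - tanh z ^ 2) / (1 - tanh 6 ^ 2) :=
      div_nonneg (by linarith [tanh_sq_lt_one z]) h6.le
    linarith
  · have h1 : tanh |z| ≤ tanh 6 := tanh_monotone' h.le
    have h2 : 1 ≤ (1 - tanh z ^ 2) / (1 - tanh 6 ^ 2) := by
      rw [le_div_iff₀ h6, one_mul, ← sq_abs (tanh z), abs_tanh_eq]
      have h0 : 0 ≤ tanh |z| := abs_tanh_eq z ▸ abs_nonneg _
      nlinarith
    nlinarith [sq_tanh_le_mul z, sq_nonneg (tanh z)]

lemma integrable_coord {n : ℕ} {f : ℝ → ℝ} (hf : Integrable f (gaussianReal 0 1)) (i : Fin n) :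
    Integrable (fun g => f (g i)) (gauss (Fin n)) :=
  (measurePreserving_eval (fun _ : Fin n => gaussianReal 0 1) i).integrable_comp_of_integrable hf

lemma integral_coord_eq {n : ℕ} {f : ℝ → ℝ} (hf : Integrable f (gaussianReal 0 1)) (i : Fin n) :
    ∫ g, f (g i) ∂gauss (Fin n) = ∫ x, f x ∂gaussianReal 0 1 := by
  have h := measurePreserving_eval (fun _ : Fin n => gaussianReal 0 1) i
  conv_rhs => rw [← h.map_eq]
  rw [integral_map h.measurable.aemeasurable (by rw [h.map_eq]; exact hf.aestronglyMeasurable)]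
  rfl

lemma integrable_abs_gaussian : Integrable (fun x : ℝ => |x|) (gaussianReal 0 1) :=
  ((memLp_id_gaussianReal' 1 (by simp)).integrable le_rfl).abs

lemma integral_abs_gaussian_le : ∫ x : ℝ, |x| ∂gaussianReal 0 1 ≤ 1 := by
  have h2 : Integrable (fun x : ℝ => x ^ 2) (gaussianReal 0 1) :=
    (memLp_id_gaussianReal' 2 (by simp)).integrable_sq
  have hv : ∫ x : ℝ, x ^ 2 ∂gaussianReal 0 1 = 1 := by
    have h := variance_id_gaussianReal (μ := 0) (v := 1)
    rw [variance_eq_integral aemeasurable_id] at h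
    simpa [integral_id_gaussianReal] using h
  have h3 : Integrable (fun x : ℝ => (1 + x ^ 2) / 2) (gaussianReal 0 1) :=
    ((integrable_const _).add h2).div_const 2
  refine (integral_mono integrable_abs_gaussian h3 fun x => ?_).trans_eq ?_
  · show |x| ≤ (1 + x ^ 2) / 2
    nlinarith [sq_nonneg (|x| - 1), sq_abs x]
  · rw [integral_div, integral_add (integrable_const _) h2, hv]
    simp

lemma abs_radial_linear_le {n : ℕ} (g z : Fin n → ℝ) :
    |∑ i, g i * tanhv z i| ≤ ∑ i, |g i| :=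
  (abs_sum_le_sum_abs _ _).trans (sum_le_sum fun i _ => by
    rw [abs_mul]
    exact mul_le_of_le_one_right (abs_nonneg _) (abs_tanh_lt_one _).le)

lemma abs_sqrt_sub_sqrt_le {a b : ℝ} (ha : 0 ≤ a) (hb : 0 ≤ b) : |√a - √b| ≤ √|a - b| := by
  have key : ∀ a b : ℝ, 0 ≤ b → √a ≤ √b + √|a - b| := fun a b hb => by
    rw [sqrt_le_left (by positivity)]
    nlinarith [le_abs_self (a - b), sq_sqrt hb, sq_sqrt (abs_nonneg (a - b)),
      mul_nonneg (sqrt_nonneg b) (sqrt_nonneg |a - b|)]
  have h1 := key a b hb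
  have h2 := key b a ha
  rw [abs_sub_comm b a] at h2
  exact abs_le.2 ⟨by linarith, by linarith⟩

/-- Near `q₀ < 1`. -/
theorem radial_window_mid (hcert : RadialCert) {β ρ : ℝ} (hβ : 0 ≤ β) (hβ1 : β < 1) (hρ : 0 < ρ)
    {q₀ : ℝ} (hq : ρ ≤ q₀) (hq1 : q₀ < 1) :
    ∃ h > 0, ∀ n : ℕ, 0 < n → gauss (Fin n × Fin n) {g | ∃ z : Fin n → ℝ,
        qav (tanhv z) ∈ Set.Ioo (q₀ - h) (q₀ + h) ∧
        radPhi β z < (∑ i, tanhv z i * act (skCoupling β g) (tanhv z) i)
          + (1 - β) ^ 2 * ρ / 4 * n}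
      ≤ ENNReal.ofReal (exp (-(((1 - β) ^ 2 * ρ / 4) ^ 2 / 16 * n))) := by
  obtain ⟨lam, V, -, hV, hdom, hE⟩ := hcert q₀ (hρ.trans_le hq) hq1
  set η := (1 - β) ^ 2 * ρ / 4 with hη
  have hη0 : 0 < η := by rw [hη]; have : 0 < 1 - β := by linarith
                         positivity
  set h := min 1 ((η / (|lam| + 6)) ^ 2) with hh
  have hh0 : 0 < h := lt_min one_pos (by positivity)
  have herr : |lam| * h + 4 * h + 2 * √h ≤ η := by
    have h1 : √h ≤ η / (|lam| + 6) := (sqrt_le_left (by positivity)).2 (min_le_right _ _)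
    have h2 : h ≤ √h := by
      have h3 : √h ≤ 1 := sqrt_le_one.2 (min_le_left _ _)
      calc h = √h * √h := (mul_self_sqrt hh0.le).symm
        _ ≤ √h * 1 := mul_le_mul_of_nonneg_left h3 (sqrt_nonneg _)
        _ = √h := mul_one _
    rw [le_div_iff₀ (by positivity)] at h1
    nlinarith [abs_nonneg lam]
  refine ⟨h, hh0, fun n hn => ?_⟩
  have hn' : (0 : ℝ) < n := by exact_mod_cast hn
  set a := β * (lam * q₀ + |lam| * h) - (1 - β) * (q₀ - h) - β ^ 2 * (q₀ * (1 - q₀) - 3 * h)
  refine radial_window hn hβ hβ1.le hη0.le _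
    (fun g => β * (∑ i, V (g i)) + 2 * √h * (∑ i, |g i|) + n * a)
    ((((integrable_finsetSum _ fun i _ => integrable_coord hV i).const_mul β).add
      ((integrable_finsetSum _ fun i _ => integrable_coord integrable_abs_gaussian i).const_mul
        (2 * √h))).add (integrable_const _)) ?_ ?_
  · have i1 := integrable_finsetSum (univ : Finset (Fin n)) fun i _ => integrable_coord hV i
    have i2 := integrable_finsetSum (univ : Finset (Fin n)) fun i _ =>
      integrable_coord integrable_abs_gaussian i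
    rw [integral_add (f := fun g : Fin n → ℝ => β * (∑ i, V (g i)) + 2 * √h * ∑ i, |g i|)
        ((i1.const_mul β).add (i2.const_mul (2 * √h))) (integrable_const _),
      integral_add (i1.const_mul β) (i2.const_mul _), integral_const_mul, integral_const_mul,
      integral_finsetSum _ (fun i _ => integrable_coord hV i),
      integral_finsetSum _ (fun i _ => integrable_coord integrable_abs_gaussian i)]
    simp only [integral_coord_eq hV, integral_coord_eq integrable_abs_gaussian, sum_const,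
      card_univ, Fintype.card_fin, nsmul_eq_mul, integral_const, probReal_univ, one_smul]
    have key : β * (∫ x, V x ∂gaussianReal 0 1) + 2 * √h * (∫ x, |x| ∂gaussianReal 0 1) + a
        ≤ -(2 * η) := by
      have h1 := mul_le_mul_of_nonneg_left hE hβ
      have h2 : 2 * √h * ∫ x, |x| ∂gaussianReal 0 1 ≤ 2 * √h :=
        mul_le_of_le_one_right (by positivity) integral_abs_gaussian_le
      have h3 : 4 * η ≤ q₀ * (1 - β) * (1 - β * (1 - q₀)) := by
        have hb : 0 ≤ 1 - β := by linarith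
        have : 1 - β ≤ 1 - β * (1 - q₀) := by nlinarith
        calc 4 * η = (1 - β) ^ 2 * ρ := by rw [hη]; ring
          _ ≤ (1 - β) ^ 2 * q₀ := by gcongr
          _ = q₀ * (1 - β) * (1 - β) := by ring
          _ ≤ _ := by gcongr; exact mul_nonneg (hρ.le.trans hq) hb
      have h4 : β * (|lam| * h) ≤ |lam| * h := mul_le_of_le_one_left (by positivity) hβ1.le
      have hb2 : β ^ 2 ≤ 1 := by nlinarith
      have h5 : (1 - β) * h + β ^ 2 * (3 * h) ≤ 4 * h := by nlinarith
      simp only [a]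
      linarith
    nlinarith [mul_le_mul_of_nonneg_left key hn'.le]
  · intro z hz g
    obtain ⟨hz1, hz2⟩ := hz
    set qs := qav (tanhv z) with hqs
    have hqs1 : qs ≤ 1 := qav_tanhv_le_one z
    have hqs0 : 0 ≤ qs := by
      rw [hqs, qav, avg]
      exact div_nonneg (sum_nonneg fun i _ => sq_nonneg _) (Nat.cast_nonneg _)
    have habs : |qs - q₀| ≤ h := abs_le.2 ⟨by linarith, by linarith⟩
    have hsum : qs * n = ∑ i, tanhv z i ^ 2 := qav_mul_card hn _
    set G := ∑ i, g i * tanhv z i with hG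
    set Φ := ∑ i, tanhv z i * z i with hΦ
    have d1 : 2 * √q₀ * G ≤ (∑ i, V (g i)) + Φ + lam * (qs * n) := by
      rw [hsum, hG, hΦ, mul_sum, mul_sum, ← sum_add_distrib, ← sum_add_distrib]
      refine sum_le_sum fun i _ => ?_
      have := hdom (g i) (z i)
      simp only [tanhv]
      linarith
    have d2 : (√qs - √q₀) * G ≤ √h * ∑ i, |g i| := by
      refine (le_abs_self _).trans ?_
      rw [abs_mul]
      exact mul_le_mul ((abs_sqrt_sub_sqrt_le hqs0 (hρ.le.trans hq)).trans (sqrt_le_sqrt habs))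
        (abs_radial_linear_le g z) (abs_nonneg _) (sqrt_nonneg _)
    have d3 : qs * n ≤ Φ := by
      rw [hsum]
      exact sum_le_sum fun i _ => sq_tanh_le_mul (z i)
    have d4 : lam * qs ≤ lam * q₀ + |lam| * h := by
      have := mul_le_mul_of_nonneg_left habs (abs_nonneg lam)
      rw [← abs_mul] at this
      nlinarith [le_abs_self (lam * (qs - q₀))]
    have d5 : q₀ * (1 - q₀) - 3 * h ≤ qs * (1 - qs) := by
      obtain ⟨e1, e2⟩ := abs_le.1 habs
      have e3 : |1 - qs - q₀| ≤ 3 := abs_le.2 ⟨by linarith, by linarith⟩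
      have e4 : |(qs - q₀) * (1 - qs - q₀)| ≤ h * 3 := by
        rw [abs_mul]; exact mul_le_mul habs e3 (abs_nonneg _) hh0.le
      nlinarith [(abs_le.1 e4).1]
    have p1 := mul_le_mul_of_nonneg_left d1 hβ
    have p2 : β * ((√qs - √q₀) * G) ≤ √h * ∑ i, |g i| :=
      (mul_le_mul_of_nonneg_left d2 hβ).trans
        (mul_le_of_le_one_left (mul_nonneg (sqrt_nonneg _) (sum_nonneg fun i _ => abs_nonneg _))
          hβ1.le)
    have p3 : (1 - β) * ((q₀ - h) * n) ≤ (1 - β) * Φ :=
      mul_le_mul_of_nonneg_left ((mul_le_mul_of_nonneg_right (by linarith) hn'.le).trans d3)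
        (by linarith)
    have p4 := mul_le_mul_of_nonneg_left (mul_le_mul_of_nonneg_right d4 hn'.le) hβ
    have p5 := mul_le_mul_of_nonneg_left (mul_le_mul_of_nonneg_right d5 hn'.le) (sq_nonneg β)
    simp only [radPhi, onsager, ← hqs, ← hΦ, a]
    linarith

/-- Squared norms close to one. -/
theorem radial_window_top {β : ℝ} (hβ : 0 ≤ β) (hβ1 : β ≤ 1) {n : ℕ} (hn : 0 < n) :
    gauss (Fin n × Fin n) {g | ∃ z : Fin n → ℝ,
        qav (tanhv z) ∈ Set.Ioi (1 - (1 - tanh 6 ^ 2) / 2) ∧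
        radPhi β z < (∑ i, tanhv z i * act (skCoupling β g) (tanhv z) i) + 1 / 4 * n}
      ≤ ENNReal.ofReal (exp (-((1 / 4 : ℝ) ^ 2 / 16 * n))) := by
  have hn' : (0 : ℝ) < n := by exact_mod_cast hn
  have h6 : 0 < 1 - tanh (6 : ℝ) ^ 2 := by linarith [tanh_sq_lt_one (6 : ℝ)]
  refine radial_window hn hβ hβ1 (by norm_num) _
    (fun g => 2 * (∑ i, |g i|) + n * -(18 / 7))
    (((integrable_finsetSum _ fun i _ => integrable_coord integrable_abs_gaussian i).const_mul
      2).add (integrable_const _)) ?_ ?_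
  · have i2 := integrable_finsetSum (univ : Finset (Fin n)) fun i _ =>
      integrable_coord integrable_abs_gaussian i
    rw [integral_add (i2.const_mul _) (integrable_const _), integral_const_mul,
      integral_finsetSum _ (fun i _ => integrable_coord integrable_abs_gaussian i)]
    simp only [integral_coord_eq integrable_abs_gaussian, sum_const, card_univ, Fintype.card_fin,
      nsmul_eq_mul, integral_const, probReal_univ, one_smul]
    nlinarith [mul_le_mul_of_nonneg_left integral_abs_gaussian_le hn'.le]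
  · intro z hz g
    set qs := qav (tanhv z) with hqs
    have hqs1 : qs ≤ 1 := qav_tanhv_le_one z
    rw [Set.mem_Ioi] at hz
    have hqs0 : 0 ≤ qs := by linarith [sq_nonneg (tanh 6)]
    have hsum : qs * n = ∑ i, tanhv z i ^ 2 := qav_mul_card hn _
    have d1 : 36 / 7 * ((n : ℝ) - (n - qs * n) / (1 - tanh 6 ^ 2)) ≤ ∑ i, tanhv z i * z i := by
      refine le_trans (le_of_eq ?_) (sum_le_sum fun i _ => tanh_mul_self_high (z i))
      rw [hsum]
      simp [← mul_sum, ← sum_div, sum_sub_distrib, tanhv]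
    have d2 : ((n : ℝ) - qs * n) / (1 - tanh 6 ^ 2) ≤ n / 2 := by
      rw [div_le_iff₀ h6]
      nlinarith [mul_le_mul_of_nonneg_right hz.le hn'.le]
    have d3 : β * √qs * (∑ i, g i * tanhv z i) ≤ ∑ i, |g i| := by
      refine (le_abs_self _).trans ?_
      rw [abs_mul]
      refine (mul_le_of_le_one_left (abs_nonneg _) ?_).trans (abs_radial_linear_le g z)
      rw [abs_of_nonneg (by positivity)]
      exact mul_le_one₀ hβ1 (sqrt_nonneg _) (sqrt_le_one.2 hqs1)
    have d4 : 0 ≤ β ^ 2 * (1 - qs) * (qs * n) := by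
      have : 0 ≤ 1 - qs := by linarith
      positivity
    simp only [radPhi, onsager, ← hqs]
    linarith

/-- The zero-field radial inequality, from the one-site certificate. -/
theorem radialStatement_of_cert (hcert : RadialCert) {β : ℝ} (hβ : 0 ≤ β) (hβ1 : β < 1) :
    RadialStatement β := by
  intro ρ hρ
  have h6 : 0 < 1 - tanh (6 : ℝ) ^ 2 := by linarith [tanh_sq_lt_one (6 : ℝ)]
  set top := 1 - (1 - tanh (6 : ℝ) ^ 2) / 2 with htop
  set η := (1 - β) ^ 2 * ρ / 4 with hη
  have hη0 : 0 < η := by rw [hη]; have : 0 < 1 - β := by linarith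
                         positivity
  choose h hh0 hbd using fun q : Set.Icc ρ top =>
    radial_window_mid hcert hβ hβ1 hρ q.2.1 (lt_of_le_of_lt q.2.2 (by rw [htop]; linarith))
  obtain ⟨t, ht⟩ := (isCompact_Icc (a := ρ) (b := top)).elim_finite_subcover
    (fun q : Set.Icc ρ top => Set.Ioo (q.1 - h q) (q.1 + h q)) (fun _ => isOpen_Ioo)
    fun x hx => Set.mem_iUnion.2 ⟨⟨x, hx⟩, by constructor <;> linarith [hh0 ⟨x, hx⟩]⟩
  set κ := min η (1 / 4)
  refine ⟨κ, lt_min hη0 (by norm_num), ?_⟩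
  have hκη : κ ≤ η := min_le_left _ _
  have hκ4 : κ ≤ 1 / 4 := min_le_right _ _
  set c := κ ^ 2 / 16 with hc
  have hc0 : 0 < c := by
    have : 0 < κ := lt_min hη0 (by norm_num)
    rw [hc]; positivity
  have hlim : Tendsto (fun n : ℕ => ENNReal.ofReal ((t.card + 1) * exp (-(c * n)))) atTop (𝓝 0) := by
    rw [← ENNReal.ofReal_zero]
    refine ENNReal.tendsto_ofReal ?_
    rw [show (0 : ℝ) = (t.card + 1) * 0 by ring]
    refine (Real.tendsto_exp_atBot.comp ?_).const_mul _
    exact tendsto_neg_atTop_atBot.comp (tendsto_natCast_atTop_atTop.const_mul_atTop hc0)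
  have hlow : Tendsto (fun n : ℕ => 1 - ENNReal.ofReal ((t.card + 1) * exp (-(c * n))))
      atTop (𝓝 1) := by
    simpa using ENNReal.Tendsto.sub tendsto_const_nhds hlim (Or.inl ENNReal.one_ne_top)
  refine tendsto_of_tendsto_of_tendsto_of_le_of_le' hlow tendsto_const_nhds
    ((eventually_gt_atTop 0).mono fun n hn => ?_)
    (Eventually.of_forall fun n => prob_le_one)
  have hn' : (0 : ℝ) < n := by exact_mod_cast hn
  set B : Set.Icc ρ top → Set (Fin n × Fin n → ℝ) := fun q => {g | ∃ z : Fin n → ℝ,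
    qav (tanhv z) ∈ Set.Ioo (q.1 - h q) (q.1 + h q) ∧
    radPhi β z < (∑ i, tanhv z i * act (skCoupling β g) (tanhv z) i) + η * n}
  set T : Set (Fin n × Fin n → ℝ) := {g | ∃ z : Fin n → ℝ, qav (tanhv z) ∈ Set.Ioi top ∧
    radPhi β z < (∑ i, tanhv z i * act (skCoupling β g) (tanhv z) i) + 1 / 4 * n}
  change _ ≤ gauss (Fin n × Fin n) _
  set good := {g : Fin n × Fin n → ℝ | ∀ z : Fin n → ℝ, ρ ≤ qav (tanhv z) →
        (∑ i, tanhv z i * act (skCoupling β g) (tanhv z) i) + κ * n
          ≤ (∑ i, tanhv z i * z i) + onsager β (tanhv z) * (qav (tanhv z) * n)}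
  have hcover : (Set.univ : Set (Fin n × Fin n → ℝ)) ⊆ good ∪ ((⋃ q ∈ t, B q) ∪ T) := by
    intro g _
    by_cases hg : g ∈ good
    · exact Or.inl hg
    right
    simp only [good, Set.mem_ofPred_eq, not_forall, not_le] at hg
    obtain ⟨z, hz, hlt⟩ := hg
    rcases le_or_gt (qav (tanhv z)) top with htp | htp
    · obtain ⟨q, hq, hmem⟩ := Set.mem_iUnion₂.1 (ht ⟨hz, htp⟩)
      refine Or.inl (Set.mem_iUnion₂.2 ⟨q, hq, z, hmem, ?_⟩)
      unfold radPhi
      linarith [mul_le_mul_of_nonneg_right hκη hn'.le]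
    · refine Or.inr ⟨z, htp, ?_⟩
      unfold radPhi
      linarith [mul_le_mul_of_nonneg_right hκ4 hn'.le]
  have hbad : gauss (Fin n × Fin n) ((⋃ q ∈ t, B q) ∪ T)
      ≤ ENNReal.ofReal ((t.card + 1) * exp (-(c * n))) := by
    have hexp : ∀ x, κ ≤ x → ENNReal.ofReal (exp (-(x ^ 2 / 16 * n)))
        ≤ ENNReal.ofReal (exp (-(c * n))) := fun x hx => by
      refine ENNReal.ofReal_le_ofReal (exp_le_exp.2 (neg_le_neg ?_))
      rw [hc]
      have : 0 ≤ κ := (lt_min hη0 (by norm_num)).le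
      gcongr
    refine (measure_union_le _ _).trans ?_
    rw [add_mul, one_mul, ENNReal.ofReal_add (by positivity) (by positivity),
      ENNReal.ofReal_mul (Nat.cast_nonneg _), ENNReal.ofReal_natCast, ← nsmul_eq_mul,
      ← sum_const]
    exact add_le_add ((measure_biUnion_finset_le t B).trans
      (sum_le_sum fun q _ => (hbd q n hn).trans (hexp η hκη)))
      ((radial_window_top hβ hβ1.le hn).trans (hexp _ hκ4))
  rw [tsub_le_iff_right]
  calc (1 : ℝ≥0∞) = gauss (Fin n × Fin n) Set.univ := measure_univ.symm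
    _ ≤ gauss (Fin n × Fin n) good + gauss (Fin n × Fin n) ((⋃ q ∈ t, B q) ∪ T) :=
        (measure_mono hcover).trans (measure_union_le _ _)
    _ ≤ _ := add_le_add le_rfl hbad

end Vale.Agent.P150.Beta1
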