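import Mathlib
import Vale.Agent.P150.Beta1.Radial.Tilt

/-!
# From a polynomial inequality to the certificate, by one Gaussian integration by parts
-/

namespace Vale.Agent.P150.Beta1.Radial

open MeasureTheory ProbabilityTheory Set Filter Real
open scoped Topology

/-- Truncated series of `artanh m / m` in `x = m²`. -/
noncomputable def serT (K : ℕ) (x : ℝ) : ℝ :=
  ∑ k ∈ Finset.range (K + 1), x ^ k / (2 * (k : ℝ) + 1)

/-- Numerator of the test function's even factor. -/
def numP (c₀ c₁ c₂ c₃ x : ℝ) : ℝ := c₀ + c₁ * x + c₂ * x ^ 2 + c₃ * x ^ 3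

/-- Numerator of the derivative of `m ↦ m * numP (m²) / (1 - d m²)`. -/
def numD (d c₀ c₁ c₂ c₃ x : ℝ) : ℝ :=
  (c₀ + 3 * c₁ * x + 5 * c₂ * x ^ 2 + 7 * c₃ * x ^ 3) * (1 - d * x)
    + 2 * d * x * numP c₀ c₁ c₂ c₃ x

/-- The polynomial that has to be nonpositive on the unit interval. -/
noncomputable def certPoly (K : ℕ) (q μ d c₀ c₁ c₂ c₃ x : ℝ) : ℝ :=
  (2 - 2 * μ * (1 - x) ^ 2) *
      ((1 - d * x) ^ 2 * (x - μ * x * (1 - x) - (μ * q + q - q ^ 2) * (1 - x))
        - (1 - d * x) * numP c₀ c₁ c₂ c₃ x * (x * (serT K x * (1 - x) + 1 - 2 * μ * (1 - x))))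
    + 4 * q * (1 - x) ^ 3 * numD d c₀ c₁ c₂ c₃ x

/-- The series bound `x T(x) ≤ z tanh z` at `x = tanh² z`. -/
lemma serT_le (K : ℕ) (z : ℝ) : tanh z ^ 2 * serT K (tanh z ^ 2) ≤ z * tanh z := by
  wlog hz : 0 ≤ z generalizing z
  · simpa [tanh_neg] using this (-z) (by linarith [not_le.1 hz])
  have hm0 : 0 ≤ tanh z := by
    rw [tanh_eq_sinh_div_cosh]
    exact div_nonneg (sinh_nonneg_iff.2 hz) (cosh_pos z).le
  have hm1 := tanh_lt_one z
  have h := sum_range_le_log_div hm0 hm1 (K + 1)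
  rw [← artanh_eq_half_log ⟨by linarith, hm1.le⟩, artanh_tanh] at h
  have h2 := mul_le_mul_of_nonneg_left h hm0
  refine le_trans (le_of_eq ?_) (h2.trans_eq (mul_comm _ _))
  rw [serT, Finset.mul_sum, Finset.mul_sum]
  exact Finset.sum_congr rfl fun k _ => by ring

lemma strictMono_tilt {μ : ℝ} (h0 : 0 ≤ μ) (h1 : μ < 1) : StrictMono (tilt μ) :=
  strictMono_of_hasDerivAt_pos (hasDerivAt_tilt μ) fun z => by linarith [le_tiltDer h0 z]

lemma surjective_tilt {μ : ℝ} (h0 : 0 ≤ μ) : Function.Surjective (tilt μ) := by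
  refine (continuous_tilt μ).surjective ?_ ?_
  · refine tendsto_atTop_mono' atTop ?_ (tendsto_atTop_add_const_right atTop (-(2 * μ)) tendsto_id)
    filter_upwards [eventually_ge_atTop (0 : ℝ)] with z hz
    have h1 := mul_nonneg (sinh_nonneg_iff.2 hz) (cosh_pos z).le
    have h2 : 2 * μ * tanh z ≤ 2 * μ := mul_le_of_le_one_right (by linarith) (tanh_lt_one z).le
    simp only [tilt, id]
    linarith
  · refine tendsto_atBot_mono' atBot ?_ (tendsto_atBot_add_const_right atBot (2 * μ) tendsto_id)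
    filter_upwards [eventually_le_atBot (0 : ℝ)] with z hz
    have h1 := mul_nonpos_of_nonpos_of_nonneg (sinh_nonpos_iff.2 hz) (cosh_pos z).le
    have h2 : -(2 * μ) ≤ 2 * μ * tanh z := by nlinarith [neg_one_lt_tanh z]
    simp only [tilt, id]
    linarith

/-- The site cost reached on the stationary curve. -/
lemma stationary_value (μ z : ℝ) :
    tilt μ z * tanh z - siteCost μ z
      = tanh z ^ 2 / (1 - tanh z ^ 2) - μ * tanh z ^ 2 := by
  rw [one_sub_tanh_sq]
  simp only [tilt, siteCost]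
  rw [tanh_eq_sinh_div_cosh]
  have := (cosh_pos z).ne'
  field_simp
  ring

lemma tiltDer_eq (μ z : ℝ) :
    tiltDer μ z = (2 - 2 * μ * (1 - tanh z ^ 2) ^ 2) / (1 - tanh z ^ 2) := by
  rw [one_sub_tanh_sq, tiltDer]
  have := (cosh_pos z).ne'
  field_simp

theorem cert_of_poly {q μ d c₀ c₁ c₂ c₃ : ℝ} {K : ℕ} (hq : 0 < q) (hμ0 : 0 ≤ μ) (hμ1 : μ < 1)
    (hd0 : 0 ≤ d) (hd1 : d < 1) (hP : ∀ x ∈ Icc (0 : ℝ) 1, 0 ≤ numP c₀ c₁ c₂ c₃ x)
    (hN : ∀ x ∈ Icc (0 : ℝ) 1, certPoly K q μ d c₀ c₁ c₂ c₃ x ≤ 0) : CertAt q := by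
  have hmono := strictMono_tilt hμ0 hμ1
  set E : ℝ ≃o ℝ := hmono.orderIsoOfSurjective (tilt μ) (surjective_tilt hμ0) with hE
  set Z : ℝ → ℝ := ⇑E.symm with hZ
  have hZr : ∀ G, tilt μ (Z G) = G := fun G => E.apply_symm_apply G
  have hZc : Continuous Z := E.symm.continuous
  have hk : ∀ z, 0 < tiltDer μ z := fun z => by linarith [le_tiltDer hμ0 z]
  have hZd : ∀ G, HasDerivAt Z (tiltDer μ (Z G))⁻¹ G := fun G =>
    (hasDerivAt_tilt μ (Z G)).of_local_left_inverse hZc.continuousAt (hk _).ne'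
      (Eventually.of_forall hZr)
  set s := 2 * √q with hsdef
  have hs : 0 < s := by positivity
  set P : ℝ → ℝ := fun x => numP c₀ c₁ c₂ c₃ x with hPdef
  set p : ℝ → ℝ := fun m => m * P (m ^ 2) / (1 - d * m ^ 2) with hp
  set p' : ℝ → ℝ := fun m => numD d c₀ c₁ c₂ c₃ (m ^ 2) / (1 - d * m ^ 2) ^ 2 with hp'
  have hx1 : ∀ z, tanh z ^ 2 ∈ Icc (0 : ℝ) 1 := fun z =>
    ⟨sq_nonneg _, (tanh_sq_lt_one' z).le⟩
  have hden : ∀ z, 1 - d ≤ 1 - d * tanh z ^ 2 := fun z => by
    nlinarith [(hx1 z).1, (hx1 z).2]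
  have hpd : ∀ z, HasDerivAt p (p' (tanh z)) (tanh z) := by
    intro z
    set m := tanh z
    have hd' : 1 - d * m ^ 2 ≠ 0 := by linarith [hden z]
    have h2 : HasDerivAt (fun m : ℝ => m ^ 2) (2 * m) m := by
      simpa using hasDerivAt_pow 2 m
    have h3 : HasDerivAt (fun m => P (m ^ 2))
        ((c₁ + 2 * c₂ * m ^ 2 + 3 * c₃ * (m ^ 2) ^ 2) * (2 * m)) m := by
      have := (((h2.const_mul c₁).const_add c₀).add ((h2.pow 2).const_mul c₂)).add
        ((h2.pow 3).const_mul c₃)
      refine this.congr_deriv ?_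
      push_cast
      ring
    refine (((hasDerivAt_id m).mul h3).div ((h2.const_mul d).const_sub 1) hd').congr_deriv ?_
    simp only [hp', hPdef, numD, numP, id, Pi.mul_apply]
    field_simp
    ring
  set f : ℝ → ℝ := fun g => p (tanh (Z (s * g))) with hf
  set f' : ℝ → ℝ := fun g => p' (tanh (Z (s * g)))
      * ((1 - tanh (Z (s * g)) ^ 2) * ((tiltDer μ (Z (s * g)))⁻¹ * s)) with hf'
  have hfd : ∀ g, HasDerivAt f (f' g) g := fun g => by
    have hg : HasDerivAt (fun g => s * g) s g := by simpa using (hasDerivAt_id g).const_mul s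
    exact (hpd (Z (s * g))).comp g
      ((hasDerivAt_tanh' (Z (s * g))).comp g ((hZd (s * g)).comp g hg))
  have htc : Continuous tanh :=
    continuous_iff_continuousAt.2 fun z => (hasDerivAt_tanh' z).continuousAt
  have hkc : Continuous (tiltDer μ) := by
    unfold tiltDer
    exact (continuous_const.mul (continuous_cosh.pow 2)).sub
      (continuous_const.div (continuous_cosh.pow 2) fun z => (pow_pos (cosh_pos z) 2).ne')
  have hmc : Continuous fun g => tanh (Z (s * g)) := htc.comp (hZc.comp (continuous_const.mul continuous_id))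
  have hf'c : Continuous f' := by
    refine Continuous.mul ?_ ((continuous_const.sub (hmc.pow 2)).mul
      ((hkc.comp (hZc.comp (continuous_const.mul continuous_id))).inv₀ (fun g => (hk _).ne') |>.mul
        continuous_const))
    simp only [hp', numD, numP]
    refine Continuous.div (by fun_prop) (by fun_prop) fun g => ?_
    exact (pow_pos (lt_of_lt_of_le (by linarith) (hden (Z (s * g)))) 2).ne'
  obtain ⟨A, hA, hA'⟩ : ∃ A, (∀ g, |f g| ≤ A * (1 + |g|) ^ 0) ∧
      ∀ g, |f' g| ≤ A * (1 + |g|) ^ 0 := by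
    have hc : ContinuousOn p (Icc (-1) 1) := by
      simp only [hp, hPdef, numP]
      refine ContinuousOn.div (by fun_prop) (by fun_prop) fun m hm => ?_
      nlinarith [hm.1, hm.2, mul_nonneg hd0 (sub_nonneg.2 (show m ^ 2 ≤ 1 by nlinarith [hm.1, hm.2]))]
    have hc' : ContinuousOn p' (Icc (-1) 1) := by
      simp only [hp', numD, numP]
      refine ContinuousOn.div (by fun_prop) (by fun_prop) fun m hm => pow_ne_zero 2 ?_
      nlinarith [hm.1, hm.2, mul_nonneg hd0 (sub_nonneg.2 (show m ^ 2 ≤ 1 by nlinarith [hm.1, hm.2]))]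
    obtain ⟨A, hA⟩ := isCompact_Icc.exists_bound_of_continuousOn hc
    obtain ⟨B, hB⟩ := isCompact_Icc.exists_bound_of_continuousOn hc'
    have hmI : ∀ g, tanh (Z (s * g)) ∈ Icc (-1 : ℝ) 1 := fun g =>
      ⟨(neg_one_lt_tanh _).le, (tanh_lt_one _).le⟩
    refine ⟨max A (B * (1 * ((2 - 2 * μ)⁻¹ * s))), fun g => ?_, fun g => ?_⟩
    · simp only [pow_zero, mul_one]
      exact le_max_of_le_left (by simpa [hf] using hA _ (hmI g))
    · simp only [pow_zero, mul_one]
      refine le_max_of_le_right ?_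
      simp only [hf', abs_mul]
      have hB' := hB _ (hmI g)
      rw [Real.norm_eq_abs] at hB'
      have hB0 : 0 ≤ B := (abs_nonneg _).trans hB'
      refine mul_le_mul hB' (mul_le_mul ?_ (mul_le_mul ?_ (abs_of_pos hs).le (abs_nonneg s) ?_)
        (by positivity) zero_le_one) (by positivity) hB0
      · rw [abs_of_nonneg (by linarith [(hx1 (Z (s * g))).2])]
        linarith [(hx1 (Z (s * g))).1]
      · rw [abs_of_pos (inv_pos.2 (hk _))]
        exact inv_anti₀ (by linarith) (le_tiltDer hμ0 _)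
      · exact (inv_pos.2 (by linarith)).le
  set V : ℝ → ℝ := fun g => s * g * tanh (Z (s * g)) - siteCost μ (Z (s * g)) with hV
  have hVeq : ∀ g, V g = tanh (Z (s * g)) ^ 2 / (1 - tanh (Z (s * g)) ^ 2)
      - μ * tanh (Z (s * g)) ^ 2 := fun g => by
    rw [← stationary_value]
    simp only [hV, hZr]
  have hVc : Continuous V := by
    have hz : Continuous fun g => Z (s * g) := hZc.comp (continuous_const.mul continuous_id)
    simp only [hV, siteCost]
    fun_prop
  have hVint : Integrable V (gaussianReal 0 1) := by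
    refine ((integrable_abs_gauss.const_mul s).add (integrable_const 1)).mono'
      hVc.aestronglyMeasurable (ae_of_all _ fun g => ?_)
    simp only [Pi.add_apply]
    rw [Real.norm_eq_abs, abs_le]
    set z := Z (s * g) with hz
    have h1 := hx1 z
    constructor
    · rw [hVeq, ← hz]
      have : 0 ≤ tanh z ^ 2 / (1 - tanh z ^ 2) := div_nonneg h1.1 (by linarith [h1.2])
      nlinarith [mul_le_mul hμ1.le h1.2 h1.1 zero_le_one, mul_nonneg hs.le (abs_nonneg g)]
    · have h2 : s * g * tanh z ≤ s * |g| := by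
        rw [mul_assoc]
        refine mul_le_mul_of_nonneg_left ((le_abs_self _).trans ?_) hs.le
        rw [abs_mul]
        exact mul_le_of_le_one_right (abs_nonneg g) (abs_tanh_lt_one z).le
      have h3 : -1 ≤ siteCost μ z := by
        have := (mul_nonneg h1.1 (Finset.sum_nonneg fun k _ =>
          div_nonneg (pow_nonneg h1.1 k) (by positivity)) : 0 ≤ tanh z ^ 2 * serT 0 (tanh z ^ 2))
        have := serT_le 0 z
        have := mul_le_mul hμ1.le h1.2 h1.1 zero_le_one
        simp only [siteCost]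
        linarith
      simp only [hV, ← hz]
      linarith
  refine ⟨-μ, V, hVc, hVint, fun g z => ?_, ?_⟩
  · have h := le_of_cross (μ := μ) (G := s * g) convex_univ (mem_univ (Z (s * g)))
      (fun y _ hy => (hmono.monotone hy).trans_eq (hZr _))
      (fun y _ hy => (hZr _).symm.trans_le (hmono.monotone hy)) z (mem_univ z)
    simp only [hV]
    have h4 : siteCost μ z = z * tanh z - μ * tanh z ^ 2 := rfl
    linarith
  have hpt : ∀ g, V g - μ * q - (q - q ^ 2) ≤ s * (g * f g - f' g) := by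
    intro g
    rw [hVeq]
    simp only [hf, hf', hp, hp', hPdef, tiltDer_eq]
    set z := Z (s * g) with hz
    have hG : s * g = tilt μ z := (hZr _).symm
    set m := tanh z with hm
    set x := m ^ 2 with hx
    have hx01 : x ∈ Icc (0 : ℝ) 1 := hx1 z
    have hv : 0 < 1 - x := by linarith [tanh_sq_lt_one' z]
    have hde : 0 < 1 - d * x := lt_of_lt_of_le (by linarith) (hden z)
    have hW : 0 < 2 - 2 * μ * (1 - x) ^ 2 := by
      nlinarith [mul_le_mul_of_nonneg_left (show (1 - x) ^ 2 ≤ 1 by nlinarith [hx01.1]) hμ0]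
    have h5 : x * (serT K x * (1 - x) + 1 - 2 * μ * (1 - x)) / (1 - x) ≤ m * (s * g) := by
      rw [hG, div_le_iff₀ hv]
      have e : m * tilt μ z * (1 - x) = (z * m) * (1 - x) + x - 2 * μ * x * (1 - x) := by
        rw [hx, hm, one_sub_tanh_sq, tilt, tanh_eq_sinh_div_cosh]
        have := (cosh_pos z).ne'
        field_simp
      rw [e]
      have := mul_le_mul_of_nonneg_right (serT_le K z) hv.le
      linarith
    have hPx := hP x hx01
    have h6 := mul_le_mul_of_nonneg_left h5 (div_nonneg hPx hde.le)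
    have h7 := hN x hx01
    have hs2 : s ^ 2 = 4 * q := by rw [hsdef, mul_pow, sq_sqrt hq.le]; norm_num
    have e2 : x / (1 - x) - μ * x - μ * q - (q - q ^ 2)
        - numP c₀ c₁ c₂ c₃ x / (1 - d * x) *
          (x * (serT K x * (1 - x) + 1 - 2 * μ * (1 - x)) / (1 - x))
        + 4 * q * (numD d c₀ c₁ c₂ c₃ x / (1 - d * x) ^ 2) *
          ((1 - x) ^ 2 / (2 - 2 * μ * (1 - x) ^ 2))
        = certPoly K q μ d c₀ c₁ c₂ c₃ x
          / ((1 - x) * (1 - d * x) ^ 2 * (2 - 2 * μ * (1 - x) ^ 2)) := by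
      have aux : ∀ a b P D c g v e W : ℝ, v ≠ 0 → e ≠ 0 → W ≠ 0 →
          a / v - b - P / e * (g / v) + c * (D / e ^ 2) * (v ^ 2 / W)
            = (W * (e ^ 2 * (a - b * v) - e * P * g) + c * v ^ 3 * D) / (v * e ^ 2 * W) := by
        intro a b P D c g v e W _ _ _
        field_simp
      have := aux x (μ * x + μ * q + (q - q ^ 2)) (numP c₀ c₁ c₂ c₃ x) (numD d c₀ c₁ c₂ c₃ x)
        (4 * q) (x * (serT K x * (1 - x) + 1 - 2 * μ * (1 - x))) (1 - x) (1 - d * x)
        (2 - 2 * μ * (1 - x) ^ 2) hv.ne' hde.ne' hW.ne'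
      rw [certPoly]
      convert this using 1 <;> ring
    have h8 : certPoly K q μ d c₀ c₁ c₂ c₃ x
        / ((1 - x) * (1 - d * x) ^ 2 * (2 - 2 * μ * (1 - x) ^ 2)) ≤ 0 :=
      div_nonpos_of_nonpos_of_nonneg h7 (by positivity)
    have e3 : s * (g * (m * numP c₀ c₁ c₂ c₃ x / (1 - d * x))
          - numD d c₀ c₁ c₂ c₃ x / (1 - d * x) ^ 2 *
            ((1 - x) * (((2 - 2 * μ * (1 - x) ^ 2) / (1 - x))⁻¹ * s)))
        = numP c₀ c₁ c₂ c₃ x / (1 - d * x) * (m * (s * g))
          - 4 * q * (numD d c₀ c₁ c₂ c₃ x / (1 - d * x) ^ 2) *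
            ((1 - x) ^ 2 / (2 - 2 * μ * (1 - x) ^ 2)) := by
      rw [← hs2, inv_div]
      ring
    linarith
  have hbf := ibp_real hfd hf'c hA hA'
  have i1 : Integrable f (gaussianReal 0 1) := by
    refine ((integrable_one_add_abs_pow 0).const_mul A).mono' ?_ (ae_of_all _ fun g => hA g)
    exact (continuous_iff_continuousAt.2 fun g => (hfd g).continuousAt).aestronglyMeasurable
  have i2 : Integrable f' (gaussianReal 0 1) :=
    ((integrable_one_add_abs_pow 0).const_mul A).mono' hf'c.aestronglyMeasurable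
      (ae_of_all _ fun g => hA' g)
  have i3 : Integrable (fun g => g * f g) (gaussianReal 0 1) := by
    refine (integrable_abs_gauss.const_mul A).mono' ?_ (ae_of_all _ fun g => ?_)
    · exact (continuous_id.mul
        (continuous_iff_continuousAt.2 fun g => (hfd g).continuousAt)).aestronglyMeasurable
    · rw [Real.norm_eq_abs, abs_mul, mul_comm A]
      exact mul_le_mul_of_nonneg_left (by simpa using hA g) (abs_nonneg g)
  have hR : ∫ g, s * (g * f g - f' g) ∂gaussianReal 0 1 = 0 := by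
    rw [integral_const_mul, integral_sub i3 i2, hbf, sub_self, mul_zero]
  have hI := integral_mono ((hVint.sub (integrable_const (μ * q))).sub (integrable_const (q - q ^ 2)))
    ((i3.sub i2).const_mul s) hpt
  have e4 : ∫ g, (V g - μ * q - (q - q ^ 2)) ∂gaussianReal 0 1
      = (∫ g, V g ∂gaussianReal 0 1) - μ * q - (q - q ^ 2) := by
    rw [integral_sub (f := fun g => V g - μ * q) (hVint.sub (integrable_const _)) (integrable_const _),
      integral_sub hVint (integrable_const _)]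
    simp
  simp only [Pi.sub_apply] at hI
  rw [hR, e4] at hI
  linarith

end Vale.Agent.P150.Beta1.Radial
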