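import Mathlib
import Vale.Agent.P150.Beta1.Radial.Lower

/-!
# Bernstein forms: polynomials with nonpositive coefficients are nonpositive
-/

namespace Vale.Agent.P150.Beta1.Radial

open Set

/-- `∑ᵢ lᵢ sⁱ yⁿ⁻ⁱ`, where `n + 1` is the length of the list. -/
def bev : List ℝ → ℝ → ℝ → ℝ
  | [], _, _ => 0
  | b :: l, s, y => b * y ^ l.length + s * bev l s y

lemma bev_nonpos {l : List ℝ} (hl : ∀ b ∈ l, b ≤ 0) {s y : ℝ} (hs : 0 ≤ s) (hy : 0 ≤ y) :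
    bev l s y ≤ 0 := by
  induction l with
  | nil => simp [bev]
  | cons b l ih =>
    have h1 := mul_nonpos_of_nonpos_of_nonneg (hl b List.mem_cons_self) (pow_nonneg hy l.length)
    have h2 := mul_nonpos_of_nonneg_of_nonpos hs (ih fun a ha => hl a (List.mem_cons_of_mem _ ha))
    simp only [bev]
    linarith

lemma nonpos_piece {N : ℝ → ℝ} {a b : ℝ} (hab : a < b) (l : List ℝ)
    (h : ∀ s, N (a + (b - a) * s) = bev l s (1 - s)) (hl : ∀ e ∈ l, e ≤ 0) :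
    ∀ x ∈ Icc a b, N x ≤ 0 := by
  intro x hx
  have h0 : b - a ≠ 0 := by linarith
  have e : a + (b - a) * ((x - a) / (b - a)) = x := by field_simp; ring
  have hs : 0 ≤ (x - a) / (b - a) := div_nonneg (by linarith [hx.1]) (by linarith)
  have hy : (x - a) / (b - a) ≤ 1 := (div_le_one (by linarith)).2 (by linarith [hx.2])
  have := h ((x - a) / (b - a))
  rw [e] at this
  rw [this]
  exact bev_nonpos hl hs (by linarith)

lemma nonpos_join {N : ℝ → ℝ} {a m b : ℝ} (h₁ : ∀ x ∈ Icc a m, N x ≤ 0)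
    (h₂ : ∀ x ∈ Icc m b, N x ≤ 0) : ∀ x ∈ Icc a b, N x ≤ 0 := fun x hx =>
  (le_total x m).elim (fun h => h₁ x ⟨hx.1, h⟩) fun h => h₂ x ⟨h, hx.2⟩

/-- The inequality is convex in `q`: two values of `q` settle the interval between them. -/
theorem certPoly_interval {K : ℕ} {qa qb μ d c₀ c₁ c₂ c₃ : ℝ} (hab : qa < qb)
    (hμ1 : μ ≤ 1) (ha : ∀ x ∈ Icc (0 : ℝ) 1, certPoly K qa μ d c₀ c₁ c₂ c₃ x ≤ 0)
    (hb : ∀ x ∈ Icc (0 : ℝ) 1, certPoly K qb μ d c₀ c₁ c₂ c₃ x ≤ 0) {q : ℝ} (hq : q ∈ Icc qa qb) :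
    ∀ x ∈ Icc (0 : ℝ) 1, certPoly K q μ d c₀ c₁ c₂ c₃ x ≤ 0 := by
  intro x hx
  set L := (2 - 2 * μ * (1 - x) ^ 2) * ((1 - d * x) ^ 2 * (1 - x)) with hL
  have hL0 : 0 ≤ L := by
    refine mul_nonneg ?_ (mul_nonneg (sq_nonneg _) (by linarith [hx.2]))
    nlinarith [mul_le_mul hμ1 (show (1 - x) ^ 2 ≤ 1 by nlinarith [hx.1, hx.2]) (sq_nonneg _) zero_le_one]
  have e : (qb - qa) * certPoly K q μ d c₀ c₁ c₂ c₃ x
      = (qb - q) * certPoly K qa μ d c₀ c₁ c₂ c₃ x + (q - qa) * certPoly K qb μ d c₀ c₁ c₂ c₃ x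
        - L * (qb - qa) * ((q - qa) * (qb - q)) := by
    simp only [certPoly, hL]
    ring
  have h1 := mul_nonpos_of_nonneg_of_nonpos (sub_nonneg.2 hq.2) (ha x hx)
  have h2 := mul_nonpos_of_nonneg_of_nonpos (sub_nonneg.2 hq.1) (hb x hx)
  have h3 : 0 ≤ L * (qb - qa) * ((q - qa) * (qb - q)) :=
    mul_nonneg (mul_nonneg hL0 (by linarith)) (mul_nonneg (sub_nonneg.2 hq.1) (sub_nonneg.2 hq.2))
  exact nonpos_of_mul_nonpos_right (a := qb - qa) (by linarith) (by linarith)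

/-- A cubic with nonnegative Bernstein coefficients is nonnegative on the unit interval. -/
lemma numP_nonneg {c₀ c₁ c₂ c₃ : ℝ} (h₀ : 0 ≤ c₀) (h₁ : 0 ≤ 3 * c₀ + c₁)
    (h₂ : 0 ≤ 3 * c₀ + 2 * c₁ + c₂) (h₃ : 0 ≤ c₀ + c₁ + c₂ + c₃) :
    ∀ x ∈ Icc (0 : ℝ) 1, 0 ≤ numP c₀ c₁ c₂ c₃ x := by
  intro x hx
  have hy : 0 ≤ 1 - x := by linarith [hx.2]
  have e : numP c₀ c₁ c₂ c₃ x = c₀ * (1 - x) ^ 3 + (3 * c₀ + c₁) * (x * (1 - x) ^ 2)
      + (3 * c₀ + 2 * c₁ + c₂) * (x ^ 2 * (1 - x)) + (c₀ + c₁ + c₂ + c₃) * x ^ 3 := by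
    rw [numP]
    ring
  rw [e]
  have := hx.1
  positivity

end Vale.Agent.P150.Beta1.Radial
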