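import Vale.Agent.P150.Beta1.Statements
import Vale.Agent.P150.Beta1.QuadCompare
import Vale.Agent.P150.Beta1.Conc

/-!
# Gaussian comparison for the radial functional on a window of squared norms
-/

namespace Vale.Agent.P150.Beta1

open MeasureTheory ProbabilityTheory Finset Real
open scoped ENNReal

/-- The nonrandom part of the radial functional. -/
noncomputable def radPhi {n : ℕ} (β : ℝ) (z : Fin n → ℝ) : ℝ :=
  (∑ i, tanhv z i * z i) + onsager β (tanhv z) * (qav (tanhv z) * n)

/-- Coefficients of `g ↦ mᵀ J m`. -/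
noncomputable def radCoef {n : ℕ} (β : ℝ) (m : Fin n → ℝ) (p : Fin n × Fin n) : ℝ :=
  if p.1 < p.2 then 2 * β / √n * (m p.1 * m p.2) else 0

lemma quad_skCoupling {n : ℕ} (β : ℝ) (g : Fin n × Fin n → ℝ) (m : Fin n → ℝ) :
    ∑ i, m i * act (skCoupling β g) m i = lin (radCoef β m) g := by
  set U : Fin n → Fin n → ℝ := fun i j => if i < j then β / √n * g (i, j) * (m i * m j) else 0
  have e : ∀ i j, m i * (skCoupling β g i j * m j) = U i j + U j i := by
    intro i j
    simp only [skCoupling, U]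
    rcases lt_trichotomy i j with h | h | h
    · simp [h, h.not_gt]; ring
    · subst h; simp
    · simp [h, h.not_gt]; ring
  simp only [act, mul_sum, e, sum_add_distrib]
  rw [sum_comm (f := fun i j => U j i), ← sum_add_distrib, lin, Fintype.sum_prod_type]
  refine sum_congr rfl fun i _ => ?_
  rw [← sum_add_distrib]
  refine sum_congr rfl fun j _ => ?_
  simp only [radCoef, U]
  split_ifs <;> ring

lemma qav_tanhv_le_one {n : ℕ} (z : Fin n → ℝ) : qav (tanhv z) ≤ 1 := by
  unfold qav avg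
  rcases Nat.eq_zero_or_pos n with rfl | hn
  · simp
  rw [div_le_one (by simpa using hn)]
  calc ∑ i, tanhv z i ^ 2 ≤ ∑ _i : Fin n, (1 : ℝ) :=
        sum_le_sum fun i _ => (tanh_sq_lt_one (z i)).le
    _ = _ := by simp

lemma qav_mul_card {n : ℕ} (hn : 0 < n) (m : Fin n → ℝ) : qav m * n = ∑ i, m i ^ 2 := by
  have : (n : ℝ) ≠ 0 := by exact_mod_cast hn.ne'
  simp [qav, avg, this]

lemma radCoef_sq_le {n : ℕ} (hn : 0 < n) {β : ℝ} (hβ : |β| ≤ 1) (z : Fin n → ℝ) :
    ∑ p, radCoef β (tanhv z) p ^ 2 ≤ 4 * n := by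
  have hn' : (0 : ℝ) < n := by exact_mod_cast hn
  have hb : β ^ 2 ≤ 1 := (sq_le_one_iff_abs_le_one β).2 hβ
  have hS : ∑ i, tanhv z i ^ 2 ≤ n := by
    rw [← qav_mul_card hn]
    exact mul_le_of_le_one_left hn'.le (qav_tanhv_le_one z)
  calc ∑ p, radCoef β (tanhv z) p ^ 2
      ≤ ∑ p : Fin n × Fin n, 4 / n * (tanhv z p.1 ^ 2 * tanhv z p.2 ^ 2) := by
        refine sum_le_sum fun p _ => ?_
        unfold radCoef
        split_ifs
        · rw [mul_pow, mul_pow, div_pow, sq_sqrt hn'.le]
          refine mul_le_mul_of_nonneg_right ?_ (by positivity)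
          gcongr
          nlinarith
        · simp only [ne_eq, OfNat.ofNat_ne_zero, not_false_eq_true, zero_pow]
          positivity
    _ = 4 / n * ((∑ i, tanhv z i ^ 2) * ∑ i, tanhv z i ^ 2) := by
        rw [← mul_sum, Fintype.sum_prod_type, sum_mul_sum]
    _ ≤ 4 / n * (n * n) := by gcongr
    _ = 4 * n := by field_simp

lemma radCoef_increment {n : ℕ} (β : ℝ) (a a' : Fin n → ℝ) :
    ∑ p, (radCoef β a p - radCoef β a' p) ^ 2
      ≤ ∑ p : Fin n × Fin n,
          (√(2 * β ^ 2 / n) * (a p.1 * a p.2) - √(2 * β ^ 2 / n) * (a' p.1 * a' p.2)) ^ 2 := by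
  set D : Fin n → Fin n → ℝ := fun i j => 2 * β ^ 2 / n * (a i * a j - a' i * a' j) ^ 2
  have hD0 : ∀ i j, 0 ≤ D i j := fun i j => by positivity
  have e1 : ∀ i j, (radCoef β a (i, j) - radCoef β a' (i, j)) ^ 2
      = (if i < j then D i j else 0) + if i < j then D j i else 0 := by
    intro i j
    simp only [radCoef, D]
    split_ifs
    · rw [← mul_sub, mul_pow, div_pow, sq_sqrt (Nat.cast_nonneg n)]
      ring
    · simp
  have e2 : ∀ i j : Fin n,
      (√(2 * β ^ 2 / n) * (a i * a j) - √(2 * β ^ 2 / n) * (a' i * a' j)) ^ 2 = D i j := by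
    intro i j
    rw [← mul_sub, mul_pow, sq_sqrt (by positivity)]
  simp only [Fintype.sum_prod_type, e1, e2, sum_add_distrib]
  rw [sum_comm (f := fun i j => if i < j then D j i else 0), ← sum_add_distrib]
  refine sum_le_sum fun i _ => ?_
  rw [← sum_add_distrib]
  refine sum_le_sum fun j _ => ?_
  rcases lt_trichotomy i j with h | h | h
  · simp [h, h.not_gt]
  · subst h; simpa using hD0 i i
  · simp [h, h.not_gt]

/-- If the dominating one-site functional has expectation at most `-2κn` on the squared norms in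
`W`, then the radial functional is at most `-κn` there, outside exponentially small probability. -/
theorem radial_window {n : ℕ} (hn : 0 < n) {β κ : ℝ} (hβ : 0 ≤ β) (hβ1 : β ≤ 1) (hκ : 0 ≤ κ)
    (W : Set ℝ) (Bd : (Fin n → ℝ) → ℝ) (hBd : Integrable Bd (gauss (Fin n)))
    (hE : ∫ g, Bd g ∂gauss (Fin n) ≤ -(2 * κ * n))
    (hdom : ∀ z : Fin n → ℝ, qav (tanhv z) ∈ W → ∀ g : Fin n → ℝ,
      2 * β * √(qav (tanhv z)) * (∑ i, g i * tanhv z i) - radPhi β z ≤ Bd g) :
    gauss (Fin n × Fin n) {g | ∃ z : Fin n → ℝ, qav (tanhv z) ∈ W ∧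
        radPhi β z < (∑ i, tanhv z i * act (skCoupling β g) (tanhv z) i) + κ * n}
      ≤ ENNReal.ofReal (exp (-(κ ^ 2 / 16 * n))) := by
  have hn' : (0 : ℝ) < n := by exact_mod_cast hn
  let Z := {z : Fin n → ℝ // qav (tanhv z) ∈ W}
  rcases isEmpty_or_nonempty Z with hZ | hZ
  · refine le_of_eq_of_le ?_ zero_le
    convert measure_empty (μ := gauss (Fin n × Fin n))
    exact Set.eq_empty_of_forall_notMem fun g ⟨z, hz, _⟩ => hZ.false ⟨z, hz⟩
  set u : ℕ → Z := TopologicalSpace.denseSeq Z
  set E : ℕ → Set (Fin n × Fin n → ℝ) := fun k => {g | ∃ j : Fin (k + 1),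
    -(κ * n) < lin (radCoef β (tanhv (u j).1)) g + -radPhi β (u j).1}
  have hct : Continuous (tanhv : (Fin n → ℝ) → Fin n → ℝ) := by
    refine continuous_pi fun i => ?_
    simp only [tanhv, tanh_eq_sinh_div_cosh]
    exact Continuous.div (by fun_prop) (by fun_prop) fun z => (cosh_pos _).ne'
  have hsub : {g : Fin n × Fin n → ℝ | ∃ z : Fin n → ℝ, qav (tanhv z) ∈ W ∧
      radPhi β z < (∑ i, tanhv z i * act (skCoupling β g) (tanhv z) i) + κ * n} ⊆ ⋃ k, E k := by
    rintro g ⟨z, hz, hlt⟩
    have hc : Continuous fun z : Fin n → ℝ => lin (radCoef β (tanhv z)) g + -radPhi β z := by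
      have h1 : ∀ p, Continuous fun m : Fin n → ℝ => radCoef β m p := fun p => by
        unfold radCoef
        split_ifs <;> fun_prop
      refine Continuous.add (continuous_finsetSum _ fun p _ =>
        (((h1 p).comp hct)).mul continuous_const) ?_
      unfold radPhi onsager qav avg
      fun_prop
    have hopen : IsOpen {b : Z | -(κ * n) < lin (radCoef β (tanhv b.1)) g + -radPhi β b.1} :=
      isOpen_lt continuous_const (hc.comp continuous_subtype_val)
    rw [quad_skCoupling] at hlt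
    have hmem : (⟨z, hz⟩ : Z) ∈ {b : Z | -(κ * n) < lin (radCoef β (tanhv b.1)) g + -radPhi β b.1} := by
      show -(κ * n) < _
      linarith
    obtain ⟨k, hk⟩ := (TopologicalSpace.denseRange_denseSeq Z).exists_mem_open hopen ⟨_, hmem⟩
    exact Set.mem_iUnion.2 ⟨k, ⟨k, by omega⟩, hk⟩
  refine (measure_mono hsub).trans ?_
  have hmono : Monotone E := fun k l hkl g ⟨j, hj⟩ => ⟨⟨j, by omega⟩, hj⟩
  rw [hmono.measure_iUnion]
  refine iSup_le fun k => ?_
  set b : Fin (k + 1) → Fin n → ℝ := fun j => tanhv (u j).1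
  set c : Fin (k + 1) → ℝ := fun j => -radPhi β (u j).1
  set j₀ : Fin n := ⟨0, hn⟩
  have h1 := sup_comparison (fun j => radCoef β (b j))
    (fun j (p : Fin n × Fin n) => √(2 * β ^ 2 / n) * (b j p.1 * b j p.2)) c
    fun s t => radCoef_increment β (b s) (b t)
  have h2 := quad_comparison (sq_nonneg β) j₀ b c
  set proj : (Fin n × Fin n → ℝ) → Fin n → ℝ := fun g i => g (i, j₀)
  have hproj : MeasurePreserving proj (gauss (Fin n × Fin n)) (gauss (Fin n)) := by
    refine ⟨measurable_pi_lambda _ fun i => measurable_pi_apply _, ?_⟩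
    have e : proj = rowMap fun i (p : Fin n × Fin n) => if p = (i, j₀) then 1 else 0 := by
      funext g i
      simp [proj, rowMap]
    rw [e]
    refine gauss_map_rowMap _ fun i i' => ?_
    simp [eq_comm]
  have h3 : ∫ g, univ.sup' univ_nonempty (fun s =>
      (∑ i, 2 * √(β ^ 2 / n) * √(∑ k, b s k ^ 2) * b s i * g (i, j₀)) + c s)
        ∂gauss (Fin n × Fin n) ≤ -(2 * κ * n) := by
    refine le_trans ?_ hE
    rw [← hproj.map_eq, integral_map hproj.measurable.aemeasurable
      (by rw [hproj.map_eq]; exact hBd.aestronglyMeasurable)]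
    refine integral_mono ?_ ?_ fun g => sup'_le _ _ fun s _ => ?_
    · have := integrable_sup_lin (fun s (p : Fin n × Fin n) => if p.2 = j₀ then
        2 * √(β ^ 2 / n) * √(∑ k, b s k ^ 2) * b s p.1 else 0) c
      refine this.congr (ae_of_all _ fun g => sup'_congr _ rfl fun s _ => ?_)
      simp [lin, Fintype.sum_prod_type, ite_mul]
    · exact hproj.integrable_comp_of_integrable hBd
    refine le_trans (le_of_eq ?_) (hdom (u s).1 (u s).2 (proj g))
    have e : √(β ^ 2 / n) * √(∑ k, b s k ^ 2) = β * √(qav (b s)) := by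
      rw [← qav_mul_card hn, sqrt_div (sq_nonneg β), sqrt_sq hβ,
        sqrt_mul' _ hn'.le]
      field_simp
    simp only [c, proj, sub_eq_add_neg, mul_sum]
    congr 1
    refine sum_congr rfl fun i _ => ?_
    linear_combination 2 * b s i * g (i, j₀) * e
  have ht := sup_tail (fun j => radCoef β (b j)) c (L := √(4 * n)) (by positivity)
    (fun j => by
      rw [sq_sqrt (by positivity)]
      exact radCoef_sq_le hn (by rwa [abs_of_nonneg hβ]) (u j).1)
    (mul_nonneg hκ hn'.le)
  rw [sq_sqrt (by positivity), show (κ * n) ^ 2 / (4 * (4 * n)) = κ ^ 2 / 16 * n by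
    field_simp; ring] at ht
  refine (measure_mono fun g hg => ?_).trans
    ((ENNReal.le_ofReal_iff_toReal_le (measure_ne_top _ _) (exp_pos _).le).2 ht)
  obtain ⟨j, hj⟩ := hg
  have hle := le_sup' (fun j => (∑ p, radCoef β (b j) p * g p) + c j) (mem_univ j)
  simp only [Set.mem_ofPred_eq, lin] at h1 h2 ⊢
  simp only [lin] at hj
  linarith

end Vale.Agent.P150.Beta1
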